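import Vale.Agent.P141.H924.BirthA

/-!
# P141, line (A), flow part: the stopped part, closing numbers

* `rf_close` : the right factor of the stopped part is at most
  `C ez s^(3/2) 8^K (t / r)^5` when the cap exponent is large;
* `st_close` : the product of the two factors;
* `partMk_close` : the price of the stopped part from a bound `C (t / r)^2 s^(5/4) √ez 8^K`.
-/

namespace Vale.Agent.P141.H269.St

open Finset Matrix
open Vale.Agent.P141.PL (Pt iv hs ix cx)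
open Vale.Agent.P141.PL.H315 (Tri)
open Vale.Agent.P141.H48 (US ES)
open Vale.Agent.P141.H677.Sk
open Vale.Agent.P141.H401 (StX PartX Bun)
open Vale.Agent.P141.H305 (ClsM kapM)
open Vale.Agent.P141.H924 (slG Msk PartMk FunR)

noncomputable section

open scoped Classical

/-! ### Numbers -/

/-- **The right factor.** -/
theorem rf_close {x P G ez s D τ σ EA E Cs Ca Ce : ℝ} (hx : 1 ≤ x) (hez : 0 ≤ ez) (hs : 0 ≤ s)
    (hD : 0 ≤ D) (hCa : 0 ≤ Ca) (hCe : 0 ≤ Ce) (hCs : 0 ≤ Cs)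
    (hEA0 : 0 ≤ EA) (hE0 : 0 ≤ E)
    (hτ : τ ≤ √s * x ^ (2 : ℝ)) (hσ : σ ≤ Cs * (ez * √s) * x ^ P)
    (hEA : EA ≤ Ca * (s * D) * x ^ P) (hE : E ≤ Ce * (ez * (s * D)) * x ^ (P - G))
    (hG : 3 * P + 12 ≤ G) (hP : 0 ≤ P) :
    16000 * (√(τ * EA) * √(σ * E)) + 400 * (τ * E) ≤
      (16000 * √(Ca * Cs * Ce) + 400 * Ce) * (ez * (√s * s * D)) * x ^ (-5 : ℝ) := by
  have hx0 : 0 < x := by linarith
  have hss := Real.sqrt_nonneg s
  have hτx : 0 ≤ √s * x ^ (2 : ℝ) := by positivity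
  have a1 : τ * EA ≤ (√s * x ^ (2 : ℝ)) * (Ca * (s * D) * x ^ P) :=
    mul_le_mul hτ hEA hEA0 hτx
  have a2 : σ * E ≤ (Cs * (ez * √s) * x ^ P) * (Ce * (ez * (s * D)) * x ^ (P - G)) :=
    mul_le_mul hσ hE hE0 (by positivity)
  have a3 : τ * E ≤ (√s * x ^ (2 : ℝ)) * (Ce * (ez * (s * D)) * x ^ (P - G)) :=
    mul_le_mul hτ hE hE0 hτx
  have b1 : √(τ * EA) * √(σ * E) ≤
      √(Ca * Cs * Ce) * (ez * (√s * s * D)) * x ^ (-5 : ℝ) := by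
    have c1 : √(τ * EA) * √(σ * E) ≤ √((√s * x ^ (2 : ℝ)) * (Ca * (s * D) * x ^ P)) *
        √((Cs * (ez * √s) * x ^ P) * (Ce * (ez * (s * D)) * x ^ (P - G))) :=
      mul_le_mul (Real.sqrt_le_sqrt a1) (Real.sqrt_le_sqrt a2) (Real.sqrt_nonneg _)
        (Real.sqrt_nonneg _)
    refine c1.trans ?_
    rw [← Real.sqrt_mul (by positivity)]
    have e1 : √s * x ^ (2 : ℝ) * (Ca * (s * D) * x ^ P) *
        (Cs * (ez * √s) * x ^ P * (Ce * (ez * (s * D)) * x ^ (P - G))) =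
        (Ca * Cs * Ce) * (ez * (√s * s * D)) ^ 2 * (x ^ (2 : ℝ) * x ^ P * x ^ P * x ^ (P - G)) := by
      ring
    have e2 : x ^ (2 : ℝ) * x ^ P * x ^ P * x ^ (P - G) = x ^ (2 + P + P + (P - G)) := by
      rw [Real.rpow_add hx0, Real.rpow_add hx0, Real.rpow_add hx0]
    have e3 : x ^ (2 + P + P + (P - G)) ≤ x ^ (-10 : ℝ) :=
      Real.rpow_le_rpow_of_exponent_le hx (by linarith)
    have e4 : (x ^ (-5 : ℝ)) ^ 2 = x ^ (-10 : ℝ) := by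
      rw [← Real.rpow_natCast, ← Real.rpow_mul hx0.le]
      norm_num
    rw [e1, e2]
    have e5 : (Ca * Cs * Ce) * (ez * (√s * s * D)) ^ 2 * x ^ (2 + P + P + (P - G)) ≤
        (Ca * Cs * Ce) * ((ez * (√s * s * D)) * x ^ (-5 : ℝ)) ^ 2 := by
      refine (mul_le_mul_of_nonneg_left e3 (by positivity)).trans (le_of_eq ?_)
      rw [← e4]
      ring
    refine (Real.sqrt_le_sqrt e5).trans (le_of_eq ?_)
    rw [Real.sqrt_mul (by positivity), Real.sqrt_sq (by positivity)]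
    ring
  have b2 : τ * E ≤ Ce * (ez * (√s * s * D)) * x ^ (-5 : ℝ) := by
    refine a3.trans ?_
    have e1 : √s * x ^ (2 : ℝ) * (Ce * (ez * (s * D)) * x ^ (P - G)) =
        Ce * (ez * (√s * s * D)) * (x ^ (2 : ℝ) * x ^ (P - G)) := by ring
    rw [e1, ← Real.rpow_add hx0]
    exact mul_le_mul_of_nonneg_left (Real.rpow_le_rpow_of_exponent_le hx (by linarith))
      (by positivity)
  calc _ ≤ 16000 * (√(Ca * Cs * Ce) * (ez * (√s * s * D)) * x ^ (-5 : ℝ)) +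
        400 * (Ce * (ez * (√s * s * D)) * x ^ (-5 : ℝ)) := by linarith
    _ = _ := by ring

/-- `√(√s s) √s = s ^ (5 / 4)` in the form of the product -/
theorem s54 {s : ℝ} (hs : 0 < s) : √(s * (√s * s)) = s ^ (5 / 4 : ℝ) := by
  have e1 : s * (√s * s) = s ^ (5 / 2 : ℝ) := by
    rw [Real.sqrt_eq_rpow]
    have h1 : s * (s ^ (1 / 2 : ℝ) * s) = s ^ (1 : ℝ) * s ^ (1 / 2 : ℝ) * s ^ (1 : ℝ) := by
      rw [Real.rpow_one]
      ring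
    rw [h1, ← Real.rpow_add hs, ← Real.rpow_add hs]
    norm_num
  rw [e1, Real.sqrt_eq_rpow, ← Real.rpow_mul hs.le]
  norm_num

/-- **The product of the two factors.** -/
theorem st_close {x ez s D T X Y e Cy : ℝ} (hx : 1 ≤ x) (hez : 0 ≤ ez) (hs : 0 < s)
    (hD : 0 ≤ D) (he : 0 ≤ e) (hCy : 0 ≤ Cy) (hT : T ≤ √X * √Y)
    (hX : X ≤ 3 * e * (3 + 10 * Real.log x) * (s * D))
    (hY : Y ≤ Cy * (ez * (√s * s * D)) * x ^ (-5 : ℝ)) :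
    T ≤ √(39 * e * Cy) * (x ^ (-2 : ℝ) * (s ^ (5 / 4 : ℝ) * √ez * D)) := by
  have hx0 : 0 < x := by linarith
  have hss := Real.sqrt_nonneg s
  have hlog : Real.log x ≤ x - 1 := Real.log_le_sub_one_of_pos hx0
  have hX' : X ≤ 39 * e * x * (s * D) := by
    refine hX.trans (mul_le_mul_of_nonneg_right ?_ (by positivity))
    have h1 : 3 + 10 * Real.log x ≤ 13 * x := by linarith
    have h2 := mul_le_mul_of_nonneg_left h1 (by positivity : (0 : ℝ) ≤ 3 * e)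
    linarith
  have h1 : √X * √Y ≤ √(39 * e * x * (s * D)) * √(Cy * (ez * (√s * s * D)) * x ^ (-5 : ℝ)) :=
    mul_le_mul (Real.sqrt_le_sqrt hX') (Real.sqrt_le_sqrt hY) (Real.sqrt_nonneg _)
      (Real.sqrt_nonneg _)
  refine hT.trans (h1.trans (le_of_eq ?_))
  rw [← Real.sqrt_mul (by positivity)]
  have e4 : x * x ^ (-5 : ℝ) = (x ^ (-2 : ℝ)) ^ 2 := by
    have h2 : (x ^ (-2 : ℝ)) ^ 2 = x ^ (-4 : ℝ) := by
      rw [← Real.rpow_natCast, ← Real.rpow_mul hx0.le]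
      norm_num
    rw [h2]
    nth_rewrite 1 [← Real.rpow_one x]
    rw [← Real.rpow_add hx0]
    norm_num
  have e5 : 39 * e * x * (s * D) * (Cy * (ez * (√s * s * D)) * x ^ (-5 : ℝ)) =
      39 * e * Cy * ((s * (√s * s)) * ez * (D * x ^ (-2 : ℝ)) ^ 2) := by
    rw [mul_pow, ← e4]
    ring
  have e6 : √(39 * e * Cy * ((s * (√s * s)) * ez * (D * x ^ (-2 : ℝ)) ^ 2)) =
      √(39 * e * Cy) * √((s * (√s * s)) * ez * (D * x ^ (-2 : ℝ)) ^ 2) :=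
    Real.sqrt_mul (by positivity) _
  have e7 : √((s * (√s * s)) * ez * (D * x ^ (-2 : ℝ)) ^ 2) =
      √((s * (√s * s)) * ez) * √((D * x ^ (-2 : ℝ)) ^ 2) := Real.sqrt_mul (by positivity) _
  have e8 : √((s * (√s * s)) * ez) = √(s * (√s * s)) * √ez := Real.sqrt_mul (by positivity) _
  rw [e5, e6, e7, e8, s54 hs, Real.sqrt_sq (by positivity)]
  ring

/-! ### The price -/

/-- the bound for the stopped part, constants before `t` -/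
def StarB (D : Bun) (mk : Msk) (T : FunR) : Prop :=
  ∀ a : ℝ, 0 < a → a ≤ 1 → ∀ e0 : ℝ, 0 < e0 → e0 ≤ 1 → ∀ k8 : ℝ, 0 < k8 → k8 ≤ 1 →
  ∀ k3 : ℝ, 0 < k3 → k3 ≤ 1 → ∀ c : ℝ, 0 ≤ c → c ≤ 1 → ∀ d : ℝ, 0 < d → d ≤ 1 →
  ∀ Kt e cP L : ℝ, 0 < Kt → 1 ≤ e → 0 ≤ cP → 1 ≤ L → ∀ CD : ℝ, 1 ≤ CD → ∃ C : ℝ, 0 ≤ C ∧
  ∀ t : ℝ, 0 < t → t ≤ 1 → ∀ (n : ℕ) (ez : ℝ) (F1 F2 F3 : ℕ → Pt → ℝ),
    US n (Kt * t ^ (1 - c)) e cP F1 → US n (Kt * t ^ (1 - c)) e cP F3 → ES n ez cP F2 →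
  ∀ o : ℤ, o = 1 ∨ o = -1 → ∀ K ≤ n, ∀ (x : Pt) (ι : Type) [Fintype ι] [DecidableEq ι]
    (s r : ℝ) (U : Tri) (g : ℤ → ℤ → ℝ) (u v : ℤ → ℤ → ι → ℝ), 0 < s → 1 ≤ r →
    ClsM K x s r (L * t ^ (2 - c) * √s) (kapM L t a s r) U g u v →
    ∀ (A : FamA) (b C' : FamV ι),
      D ι ⟨a, e0, k8, k3, c, d, Kt, e, cP, L, CD, t⟩ n ez F1 F2 F3 o K x s r U g u v A b C' →
      ∀ sg : ℕ → Pt → ℝ, (∀ k m, |sg k m| ≤ 1) →
        T ι o K (cx K x) (slG (mk ι ⟨a, e0, k8, k3, c, d, Kt, e, cP, L, CD, t⟩ o K x s r U u sg) o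
          ((⟨a, e0, k8, k3, c, d, Kt, e, cP, L, CD, t⟩ : H401.Num).lam s r) K (cx K x) u) A b C' ≤
          C * ((r / t) ^ (-2 : ℝ) * (s ^ (5 / 4 : ℝ) * √ez * 8 ^ K))

/-- **The price of the stopped part.** -/
theorem partMk_close {D : Bun} {mk : Msk} {T : FunR} (H : StarB D mk T) :
    PartMk D mk T := by
  intro a ha ha1
  refine ⟨1, one_pos, fun e0 he0 he1 => ⟨1, one_pos, fun k8 hk8 hk81 => ⟨1, one_pos,
    fun k3 hk3 hk31 => ⟨1, 1, 1, 1, one_pos, one_pos, one_pos, one_pos,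
    fun c hc hc1 d hd hd1 Kt e cP L hK he hcP hL CD hCD => ?_⟩⟩⟩⟩
  obtain ⟨C, hC, H⟩ := H a ha ha1 e0 he0 he1 k8 hk8 hk81 k3 hk3 hk31 c hc hc1 d hd hd1 Kt e cP L
    hK he hcP hL CD hCD
  refine ⟨C, hC, ?_⟩
  intro t ht ht1 n ez F1 F2 F3 h1 h3 h2 o ho K hKn x ι _ _ s r U g u v hs hr hcls A b C' hD sg hsg
  refine (H t ht ht1 n ez F1 F2 F3 h1 h3 h2 o ho K hKn x ι s r U g u v hs hr hcls A b C' hD sg
    hsg).trans ?_
  have hr0 : 0 < r := by linarith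
  have hq : (r / t) ^ (-2 : ℝ) ≤ t ^ (1 + 1 : ℝ) * r ^ (-1 : ℝ) := by
    rw [Real.div_rpow hr0.le ht.le, div_eq_mul_inv, ← Real.rpow_neg ht.le, mul_comm]
    have e1 : -(-2 : ℝ) = 1 + 1 := by norm_num
    rw [e1]
    exact mul_le_mul_of_nonneg_left (Real.rpow_le_rpow_of_exponent_le hr (by norm_num))
      (Real.rpow_nonneg ht.le _)
  have hz : 0 ≤ s ^ (5 / 4 : ℝ) * √ez * 8 ^ K := by
    have := Real.rpow_nonneg hs.le (5 / 4)
    positivity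
  calc C * ((r / t) ^ (-2 : ℝ) * (s ^ (5 / 4 : ℝ) * √ez * 8 ^ K))
      ≤ C * (t ^ (1 + 1 : ℝ) * r ^ (-1 : ℝ) * (s ^ (5 / 4 : ℝ) * √ez * 8 ^ K)) :=
        mul_le_mul_of_nonneg_left (mul_le_mul_of_nonneg_right hq hz) hC
    _ = _ := by ring

end

end Vale.Agent.P141.H269.St
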